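import Mathlib

/-!
P181, the way from the shape found by the pigeonhole to the given shape: the excess `δ` (barrier
window) is split into an antitone remainder `ν` with a large first gap (a Cartan product, done
first) and Pieri steps: row `j` gets `k j` boxes, and every box of step `i` adds `e i` boxes to each
of the rows `0, .., i` (index `0` is the second row of the partition).
-/

set_option autoImplicit false

open Finset

namespace Vale.Agent.P181.Z.H328

/-- The number of Pieri boxes, chosen adaptively. -/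
def kap (e : ℕ → ℕ) (G : ℕ) (δ : ℕ → ℤ) : ℕ → ℤ
  | 0 => 0
  | j + 1 => max 0 (δ (j + 1) - δ j + (1 + e j) * kap e G δ j + if j = 0 then (G : ℤ) else 0)

lemma kap_nonneg (e : ℕ → ℕ) (G : ℕ) (δ : ℕ → ℤ) (j : ℕ) : 0 ≤ kap e G δ j := by
  cases j with
  | zero => exact le_rfl
  | succ j => exact le_max_left _ _

lemma kap_step (e : ℕ → ℕ) (G : ℕ) (δ : ℕ → ℤ) (j : ℕ) :
    δ (j + 1) - δ j + (1 + e j) * kap e G δ j + (if j = 0 then (G : ℤ) else 0) ≤
      kap e G δ (j + 1) := le_max_right _ _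

/-- The constants. -/
def KK (E : ℕ) : ℕ → ℝ
  | 0 => 0
  | j + 1 => 3 + (1 + E) * KK E j

lemma KK_nonneg (E : ℕ) (j : ℕ) : 0 ≤ KK E j := by
  induction j with
  | zero => exact le_rfl
  | succ j ih =>
    change 0 ≤ 3 + (1 + (E : ℝ)) * KK E j
    positivity

lemma KK_le_succ (E : ℕ) (j : ℕ) : KK E j ≤ KK E (j + 1) := by
  change KK E j ≤ 3 + (1 + (E : ℝ)) * KK E j
  have h1 := KK_nonneg E j
  have h2 : (0 : ℝ) ≤ E := Nat.cast_nonneg E
  nlinarith [mul_nonneg h2 h1]

lemma KK_mono (E : ℕ) : Monotone (KK E) := monotone_nat_of_le_succ (KK_le_succ E)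

/-- The bound for the number of Pieri boxes. -/
lemma kap_le (h E : ℕ) (e : ℕ → ℕ) (he : ∀ i, e i ≤ E) (G : ℕ) (x : ℕ → ℝ) (hx : ∀ i, 0 < x i)
    (hm : ∀ i, i + 1 < h + 2 → x i ≤ x (i + 1)) (c D : ℝ) (hD : 0 < D)
    (hc : (1 + (1 + E) * KK E (h + 1)) * D ≤ c) (hG : G * x 1 ≤ D) (δ : ℕ → ℤ)
    (hδ : ∀ i, i < h + 2 → c - D ≤ x i * δ i ∧ x i * δ i ≤ c + D) :
    ∀ j, j < h + 2 → x j * kap e G δ j ≤ KK E j * D ∧
      0 ≤ x j * (δ j - (1 + e j) * kap e G δ j) ∧
      c - D - (1 + E) * KK E j * D ≤ x j * (δ j - (1 + e j) * kap e G δ j) := by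
  have hE : (0 : ℝ) ≤ E := Nat.cast_nonneg E
  -- the second and the third claim follow from the first one
  have key : ∀ j, j < h + 2 → x j * kap e G δ j ≤ KK E j * D →
      0 ≤ x j * (δ j - (1 + e j) * kap e G δ j) ∧
      c - D - (1 + E) * KK E j * D ≤ x j * (δ j - (1 + e j) * kap e G δ j) := by
    intro j hj h1
    have h2 : (e j : ℝ) ≤ E := by exact_mod_cast he j
    have h3 : (0 : ℝ) ≤ kap e G δ j := by exact_mod_cast kap_nonneg e G δ j
    have h4 : 0 ≤ x j * kap e G δ j := mul_nonneg (hx j).le h3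
    have h5 : (1 + (e j : ℝ)) * (x j * kap e G δ j) ≤ (1 + E) * (KK E j * D) := by
      have h6 : (1 + (e j : ℝ)) * (x j * kap e G δ j) ≤ (1 + E) * (x j * kap e G δ j) :=
        mul_le_mul_of_nonneg_right (by linarith) h4
      exact h6.trans (mul_le_mul_of_nonneg_left h1 (by linarith))
    have h7 : KK E j ≤ KK E (h + 1) := KK_mono E (by omega)
    have h8 : (1 + (E : ℝ)) * (KK E j * D) ≤ (1 + E) * (KK E (h + 1) * D) :=
      mul_le_mul_of_nonneg_left (mul_le_mul_of_nonneg_right h7 hD.le) (by linarith)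
    have h9 := (hδ j hj).1
    have h10 : x j * ((δ j : ℝ) - (1 + e j) * kap e G δ j) =
        x j * δ j - (1 + (e j : ℝ)) * (x j * kap e G δ j) := by ring
    rw [h10]
    constructor
    · nlinarith
    · nlinarith
  intro j
  induction j with
  | zero =>
    intro hj
    have h1 : x 0 * kap e G δ 0 ≤ KK E 0 * D := by
      change x 0 * ((0 : ℤ) : ℝ) ≤ 0 * D
      simp
    exact ⟨h1, key 0 hj h1⟩
  | succ j ih =>
    intro hj
    obtain ⟨i1, i2, i3⟩ := ih (by omega)
    have h1 : x (j + 1) * kap e G δ (j + 1) ≤ KK E (j + 1) * D := by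
      have hxj : x j ≤ x (j + 1) := hm j hj
      have i0 : (0 : ℝ) ≤ (δ j : ℝ) - (1 + e j) * kap e G δ j :=
        nonneg_of_mul_nonneg_right i2 (hx j)
      have h2 : x j * ((δ j : ℝ) - (1 + e j) * kap e G δ j) ≤
          x (j + 1) * ((δ j : ℝ) - (1 + e j) * kap e G δ j) :=
        mul_le_mul_of_nonneg_right hxj i0
      have h3 := (hδ (j + 1) hj).2
      have h4 : x (j + 1) * (if j = 0 then (G : ℝ) else 0) ≤ D := by
        by_cases h0 : j = 0
        · subst h0
          rw [if_pos rfl, mul_comm]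
          exact hG
        · rw [if_neg h0, mul_zero]
          exact hD.le
      have hk : kap e G δ (j + 1) =
          max 0 (δ (j + 1) - δ j + (1 + e j) * kap e G δ j + if j = 0 then (G : ℤ) else 0) := rfl
      have hKK : KK E (j + 1) = 3 + (1 + (E : ℝ)) * KK E j := rfl
      rcases max_cases (0 : ℤ) (δ (j + 1) - δ j + (1 + e j) * kap e G δ j +
        if j = 0 then (G : ℤ) else 0) with ⟨h5, _⟩ | ⟨h5, _⟩
      · rw [hk, h5, Int.cast_zero, mul_zero]
        exact mul_nonneg (KK_nonneg E _) hD.le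
      · rw [hk, h5]
        have h6 : ((δ (j + 1) - δ j + (1 + e j) * kap e G δ j +
            if j = 0 then (G : ℤ) else 0 : ℤ) : ℝ) =
            (δ (j + 1) : ℝ) - ((δ j : ℝ) - (1 + e j) * kap e G δ j) +
              (if j = 0 then (G : ℝ) else 0) := by
          push_cast
          ring
        rw [h6, hKK]
        have h7 : x (j + 1) * ((δ (j + 1) : ℝ) - ((δ j : ℝ) - (1 + e j) * kap e G δ j) +
            (if j = 0 then (G : ℝ) else 0)) =
            x (j + 1) * δ (j + 1) - x (j + 1) * ((δ j : ℝ) - (1 + e j) * kap e G δ j) +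
              x (j + 1) * (if j = 0 then (G : ℝ) else 0) := by ring
        rw [h7]
        have h8 : (3 + (1 + (E : ℝ)) * KK E j) * D = 3 * D + (1 + (E : ℝ)) * KK E j * D := by ring
        rw [h8]
        linarith
    exact ⟨h1, key (j + 1) hj h1⟩

/-- **The steps.** -/
theorem steps (h E : ℕ) : ∃ K : ℝ, 1 ≤ K ∧ ∀ (e : Fin (h + 2) → ℕ) (_ : ∀ i, e i ≤ E) (G : ℕ)
    (x : Fin (h + 2) → ℝ) (_ : ∀ i, 0 < x i) (_ : Monotone x) (c D : ℝ) (_ : 0 < D)
    (_ : K * D ≤ c) (_ : G * x 1 ≤ D) (δ : Fin (h + 2) → ℤ)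
    (_ : ∀ i, c - D ≤ x i * δ i ∧ x i * δ i ≤ c + D),
    ∃ k ν : Fin (h + 2) → ℕ, k 0 = 0 ∧
      (∀ j, δ j = (ν j : ℤ) + k j + ∑ i ∈ univ.filter (fun i => j ≤ i), (e i : ℤ) * k i) ∧
      Antitone ν ∧ ν 1 + G ≤ ν 0 ∧ ∀ i, x i * k i ≤ K * D := by
  refine ⟨1 + (1 + E) * KK E (h + 1), ?_, ?_⟩
  · have h1 := KK_nonneg E (h + 1)
    have h2 : (0 : ℝ) ≤ E := Nat.cast_nonneg E
    have h3 : 0 ≤ (1 + (E : ℝ)) * KK E (h + 1) := mul_nonneg (by linarith) h1
    linarith
  intro e he G x hx hm c D hD hc hG δ hδ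
  classical
  -- extend everything to the natural numbers
  let e' : ℕ → ℕ := fun i => if hi : i < h + 2 then e ⟨i, hi⟩ else 0
  let x' : ℕ → ℝ := fun i => if hi : i < h + 2 then x ⟨i, hi⟩ else 1
  let δ' : ℕ → ℤ := fun i => if hi : i < h + 2 then δ ⟨i, hi⟩ else 0
  have e'_eq : ∀ i : Fin (h + 2), e' i = e i := fun i => dif_pos i.isLt
  have x'_eq : ∀ i : Fin (h + 2), x' i = x i := fun i => dif_pos i.isLt
  have δ'_eq : ∀ i : Fin (h + 2), δ' i = δ i := fun i => dif_pos i.isLt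
  have hb := kap_le h E e' (fun i => by
    by_cases hi : i < h + 2
    · change (if hi : i < h + 2 then e ⟨i, hi⟩ else 0) ≤ E
      rw [dif_pos hi]
      exact he _
    · change (if hi : i < h + 2 then e ⟨i, hi⟩ else 0) ≤ E
      rw [dif_neg hi]
      exact Nat.zero_le _) G x' (fun i => by
    by_cases hi : i < h + 2
    · change 0 < (if hi : i < h + 2 then x ⟨i, hi⟩ else 1)
      rw [dif_pos hi]
      exact hx _
    · change 0 < (if hi : i < h + 2 then x ⟨i, hi⟩ else 1)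
      rw [dif_neg hi]
      exact one_pos) (fun i hi => by
    have h1 := x'_eq ⟨i, by omega⟩
    have h2 := x'_eq ⟨i + 1, hi⟩
    change x' i = _ at h1
    change x' (i + 1) = _ at h2
    rw [h1, h2]
    apply hm
    rw [Fin.le_def]
    exact Nat.le_succ i) c D hD hc (by
    have h1 := x'_eq ⟨1, by omega⟩
    change x' 1 = _ at h1
    rw [h1]
    exact hG) δ' (fun i hi => by
    have h1 := x'_eq ⟨i, hi⟩
    have h2 := δ'_eq ⟨i, hi⟩
    change x' i = _ at h1
    change δ' i = _ at h2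
    rw [h1, h2]
    exact hδ _)
  -- the number of boxes
  let κ : ℕ → ℤ := kap e' G δ'
  have κ0 : ∀ j, 0 ≤ κ j := kap_nonneg e' G δ'
  let S : ℕ → ℤ := fun j => ∑ i ∈ Finset.Ico j (h + 2), (e' i : ℤ) * κ i
  let νz : ℕ → ℤ := fun j => δ' j - κ j - S j
  have hS : ∀ j, j < h + 2 → S j = (e' j : ℤ) * κ j + S (j + 1) := by
    intro j hj
    exact Finset.sum_eq_sum_Ico_succ_bot hj _
  have hν : ∀ j, j + 1 < h + 2 → νz (j + 1) + (if j = 0 then (G : ℤ) else 0) ≤ νz j := by
    intro j hj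
    have h1 := kap_step e' G δ' j
    have h2 := hS j (by omega)
    change (δ' (j + 1) - κ (j + 1) - S (j + 1)) + _ ≤ δ' j - κ j - S j
    rw [h2]
    change δ' (j + 1) - δ' j + (1 + e' j) * κ j + (if j = 0 then (G : ℤ) else 0) ≤ κ (j + 1) at h1
    have h3 : (1 + (e' j : ℤ)) * κ j = κ j + e' j * κ j := by ring
    rw [h3] at h1
    linarith
  have hG0 : ∀ j : ℕ, (0 : ℤ) ≤ (if j = 0 then (G : ℤ) else 0) := by
    intro j
    split_ifs
    · exact Int.natCast_nonneg G
    · exact le_rfl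
  have hνlast : 0 ≤ νz (h + 1) := by
    have h1 := (hb (h + 1) (by omega)).2.1
    have hx1 : 0 < x' (h + 1) := by
      have h2 := x'_eq ⟨h + 1, by omega⟩
      change x' (h + 1) = _ at h2
      rw [h2]
      exact hx _
    have h2 := nonneg_of_mul_nonneg_right h1 hx1
    have h3 : S (h + 1) = (e' (h + 1) : ℤ) * κ (h + 1) := by
      change ∑ i ∈ Finset.Ico (h + 1) (h + 1 + 1), (e' i : ℤ) * κ i = _
      rw [Nat.Ico_succ_singleton, Finset.sum_singleton]
    change 0 ≤ δ' (h + 1) - κ (h + 1) - S (h + 1)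
    rw [h3]
    have h4 : (0 : ℝ) ≤ ((δ' (h + 1) - (1 + e' (h + 1)) * κ (h + 1) : ℤ) : ℝ) := by
      push_cast
      exact h2
    have h5 : 0 ≤ δ' (h + 1) - (1 + e' (h + 1)) * κ (h + 1) := by exact_mod_cast h4
    linarith
  have hνanti : ∀ i d : ℕ, i + d < h + 2 → νz (i + d) ≤ νz i := by
    intro i d
    induction d with
    | zero => intro _; exact le_rfl
    | succ d ih =>
      intro hd
      have h1 := hν (i + d) (by omega)
      have h2 := hG0 (i + d)
      have h3 := ih (by omega)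
      change νz (i + d + 1) ≤ νz i
      linarith
  have hνpos : ∀ j, j < h + 2 → 0 ≤ νz j := by
    intro j hj
    have h1 := hνanti j (h + 1 - j) (by omega)
    have h2 : j + (h + 1 - j) = h + 1 := by omega
    rw [h2] at h1
    linarith
  have cν : ∀ j : Fin (h + 2), ((νz j).toNat : ℤ) = νz j := fun j =>
    Int.toNat_of_nonneg (hνpos j j.isLt)
  have cκ : ∀ j : ℕ, ((κ j).toNat : ℤ) = κ j := fun j => Int.toNat_of_nonneg (κ0 j)
  refine ⟨fun j => (κ j).toNat, fun j => (νz j).toNat, rfl, ?_, ?_, ?_, ?_⟩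
  · intro j
    have h1 : ∑ i ∈ univ.filter (fun i => j ≤ i), (e i : ℤ) * ((κ i).toNat : ℤ) = S j := by
      change _ = ∑ i ∈ Finset.Ico (j : ℕ) (h + 2), (e' i : ℤ) * κ i
      refine Finset.sum_bij (fun i _ => (i : ℕ)) ?_ ?_ ?_ ?_
      · intro i hi
        rw [Finset.mem_filter] at hi
        exact Finset.mem_Ico.2 ⟨Fin.le_def.1 hi.2, i.isLt⟩
      · intro i _ i' _ h2
        exact Fin.ext h2
      · intro i hi
        refine ⟨⟨i, (Finset.mem_Ico.1 hi).2⟩, ?_, rfl⟩
        rw [Finset.mem_filter]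
        exact ⟨Finset.mem_univ _, Fin.le_def.2 (Finset.mem_Ico.1 hi).1⟩
      · intro i _
        rw [cκ, e'_eq]
    rw [h1, cν, cκ]
    change δ j = δ' j - κ j - S j + κ j + S j
    rw [δ'_eq]
    ring
  · intro i j hij
    have h1 := hνanti i (j - i) (by have := Fin.le_def.1 hij; omega)
    have h2 : (i : ℕ) + (j - i) = j := by have := Fin.le_def.1 hij; omega
    rw [h2] at h1
    exact Int.toNat_le_toNat h1
  · have h1 := hν 0 (by omega)
    rw [if_pos rfl] at h1
    change (νz ((1 : Fin (h + 2)) : ℕ)).toNat + G ≤ (νz 0).toNat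
    have h2 : ((1 : Fin (h + 2)) : ℕ) = 1 := rfl
    rw [h2]
    have h3 := hνpos 0 (by omega)
    have h4 := hνpos 1 (by omega)
    change νz (0 + 1) + G ≤ νz 0 at h1
    rw [zero_add] at h1
    omega
  · intro i
    have h1 := (hb i i.isLt).1
    rw [x'_eq] at h1
    have h2 : (((κ i).toNat : ℕ) : ℝ) = ((κ i : ℤ) : ℝ) := by
      exact_mod_cast cκ i
    change x i * (((κ i).toNat : ℕ) : ℝ) ≤ _
    rw [h2]
    refine h1.trans (mul_le_mul_of_nonneg_right ?_ hD.le)
    have h3 : KK E i ≤ KK E (h + 1) := KK_mono E (by have := i.isLt; omega)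
    have h4 := KK_nonneg E (h + 1)
    have h5 : (0 : ℝ) ≤ E := Nat.cast_nonneg E
    nlinarith [mul_nonneg h5 h4]

end Vale.Agent.P181.Z.H328
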