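import Vale.Agent.P181.H921.ZNp

/-!
P181: the number of typical letters is smaller than `a` by a full power if the product of the rows
is (geometric mean form of the bound).
-/

set_option autoImplicit false

open Finset

namespace Vale.Agent.P181.Z.H328

open Vale.Agent.P181.H921.Z

/-- The product of the sides of the box. -/
lemma box_pow {a r : ℕ} (hra : r ≤ a) (ha : 1 ≤ a) {x l y : Fin r → ℝ} (hx : ∀ i, 0 < x i)
    (hl : ∀ i, ∑ v ∈ Lt a r, (v i : ℝ) * gm (dt x v) ≤ l i)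
    (hy : y = fun i => if (r : ℝ) * x i ≤ 1 then min (1 / x i) (a : ℝ) else 1)
    {Q : ℝ} (hQ : ∏ i, max 1 (l i / a) ≤ Q) :
    (∏ j, y j) ^ ((univ.filter fun i : Fin r => (r : ℝ) * x i ≤ 1).card + 1) ≤
      (8 * (r : ℝ) ^ (r + 1) + 1) ^ ((univ.filter fun i : Fin r => (r : ℝ) * x i ≤ 1).card + 1) *
        ((a : ℝ) ^ (univ.filter fun i : Fin r => (r : ℝ) * x i ≤ 1).card * Q) := by
  classical
  set H := univ.filter fun i : Fin r => (r : ℝ) * x i ≤ 1 with hH
  set C₁ : ℝ := 8 * (r : ℝ) ^ (r + 1) with hC₁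
  have hC₁0 : 0 ≤ C₁ := by rw [hC₁]; positivity
  have haR : (1 : ℝ) ≤ a := by exact_mod_cast ha
  have ha0 : (0 : ℝ) < a := by linarith
  have hrR : ∀ _i : Fin r, (1 : ℝ) ≤ r := fun i => by exact_mod_cast Fin.pos i
  have hinv : ∀ i, (r : ℝ) * x i ≤ 1 → (r : ℝ) ≤ 1 / x i := by
    intro i h
    rw [le_div_iff₀ (hx i)]
    exact h
  have hy1 : ∀ i, 1 ≤ y i := by
    intro i
    rw [hy]
    simp only
    split_ifs with h
    · exact le_min ((hrR i).trans (hinv i h)) haR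
    · exact le_rfl
  have hyI : ∀ i, y i = 1 ∨ (y i ≤ 1 / x i ∧ y i ≤ a) := by
    intro i
    rw [hy]
    simp only
    split_ifs with h
    · exact Or.inr ⟨min_le_left _ _, min_le_right _ _⟩
    · exact Or.inl rfl
  have hYpos : 0 < ∏ j, y j := prod_pos fun i _ => lt_of_lt_of_le one_pos (hy1 i)
  -- one row
  have hrow : ∀ i ∈ H, (∏ j, y j) * y i ≤ C₁ * (a * max 1 (l i / a)) := by
    intro i hi
    have h1 : (r : ℝ) * x i ≤ 1 := (mem_filter.1 hi).2
    have h2 : y i = min (1 / x i) (a : ℝ) := by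
      rw [hy]
      simp only [if_pos h1]
    have h3 : (r : ℝ) ≤ y i := by
      rw [h2]
      exact le_min (hinv i h1) (by exact_mod_cast hra)
    have h4 : y i ≤ 1 / x i ∧ y i ≤ a := by
      rw [h2]
      exact ⟨min_le_left _ _, min_le_right _ _⟩
    have h5 := box_ge hx y hy1 hyI h3 h4
    have h6 : l i ≤ a * max 1 (l i / a) := by
      have h7 := le_max_right 1 (l i / a)
      have h8 := mul_le_mul_of_nonneg_left h7 ha0.le
      rw [mul_div_cancel₀ _ ha0.ne'] at h8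
      exact h8
    exact h5.trans (mul_le_mul_of_nonneg_left ((hl i).trans h6) hC₁0)
  have hYH : ∏ i ∈ H, y i = ∏ j, y j := by
    apply prod_subset (subset_univ _)
    intro i _ hi
    have h1 : ¬ (r : ℝ) * x i ≤ 1 := fun h => hi (mem_filter.2 ⟨mem_univ _, h⟩)
    rw [hy]
    simp only [if_neg h1]
  have hprod := prod_le_prod (s := H) (f := fun i => (∏ j, y j) * y i)
    (g := fun i => C₁ * (a * max 1 (l i / a)))
    (fun i _ => mul_nonneg hYpos.le (by linarith [hy1 i])) hrow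
  simp only [prod_mul_distrib, prod_const] at hprod
  rw [hYH, ← pow_succ] at hprod
  have hQH : ∏ i ∈ H, max 1 (l i / a) ≤ Q := by
    refine le_trans ?_ hQ
    rw [← prod_sdiff (subset_univ H)]
    have h1 : (1 : ℝ) ≤ ∏ i ∈ univ \ H, max 1 (l i / a) := by
      exact Finset.one_le_prod fun i _ => le_max_left _ _
    have h2 : (0 : ℝ) ≤ ∏ i ∈ H, max 1 (l i / a) :=
      prod_nonneg fun i _ => le_trans zero_le_one (le_max_left _ _)
    nlinarith
  refine hprod.trans ?_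
  have h3 : C₁ ^ H.card ≤ (C₁ + 1) ^ (H.card + 1) := by
    calc C₁ ^ H.card ≤ (C₁ + 1) ^ H.card := pow_le_pow_left₀ hC₁0 (by linarith) _
      _ ≤ (C₁ + 1) ^ (H.card + 1) := pow_le_pow_right₀ (by linarith) (Nat.le_succ _)
  have h4 : (0 : ℝ) ≤ (a : ℝ) ^ H.card := by positivity
  have h5 : (a : ℝ) ^ H.card * ∏ i ∈ H, max 1 (l i / a) ≤ (a : ℝ) ^ H.card * Q :=
    mul_le_mul_of_nonneg_left hQH h4
  have h6 : (0 : ℝ) ≤ ∏ i ∈ H, max 1 (l i / a) :=
    prod_nonneg fun i _ => le_trans zero_le_one (le_max_left _ _)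
  exact mul_le_mul h3 h5 (mul_nonneg h4 h6) (by positivity)

/-- **The bound.** -/
theorem npL (r : ℕ) {ε : ℝ} (hε : 0 < ε) : ∃ C : ℝ, 1 ≤ C ∧ ∃ a0 : ℕ, ∀ a : ℕ, a0 ≤ a →
    ∀ x l : Fin r → ℝ, (∀ i, 0 < x i) →
    (∀ i, ∑ v ∈ Lt a r, (v i : ℝ) * gm (dt x v) ≤ l i) →
    ∏ i, max 1 (l i / a) ≤ (a : ℝ) ^ (1 - ε) →
    ∏ i, (1 - Real.exp (-(x i / 2)))⁻¹ ≤ C * (a : ℝ) ^ (1 - ε / (r + 1)) := by
  classical
  obtain ⟨C₂, hC₂⟩ : ∃ C₂ : ℝ, C₂ = 8 * (r : ℝ) ^ (r + 1) + 1 := ⟨_, rfl⟩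
  have hC₂1 : 1 ≤ C₂ := by
    rw [hC₂]
    have : (0 : ℝ) ≤ 8 * (r : ℝ) ^ (r + 1) := by positivity
    linarith
  have hr1 : (0 : ℝ) < (r : ℝ) + 1 := by positivity
  have he : 0 < ε / ((r : ℝ) + 1) := by positivity
  have ht := (tendsto_rpow_atTop he).comp tendsto_natCast_atTop_atTop
  obtain ⟨a1, ha1⟩ := Filter.eventually_atTop.1 (ht.eventually_gt_atTop C₂)
  refine ⟨(3 + 2 * r) ^ r * C₂, ?_, max a1 (max r 1), fun a ha x l hx hl hQ => ?_⟩
  · have h1 : (1 : ℝ) ≤ (3 + 2 * r) ^ r := one_le_pow₀ (by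
      have : (0 : ℝ) ≤ r := Nat.cast_nonneg r
      linarith)
    calc (1 : ℝ) = 1 * 1 := by norm_num
      _ ≤ _ := mul_le_mul h1 hC₂1 (by norm_num) (by linarith)
  have hra : r ≤ a := (le_max_left _ _).trans ((le_max_right _ _).trans ha)
  have ha' : 1 ≤ a := (le_max_right _ _).trans ((le_max_right _ _).trans ha)
  have haR : (1 : ℝ) ≤ a := by exact_mod_cast ha'
  have ha0 : (0 : ℝ) < a := by linarith
  have hbig : C₂ < (a : ℝ) ^ (ε / ((r : ℝ) + 1)) := ha1 a ((le_max_left _ _).trans ha)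
  obtain ⟨y, hy⟩ : ∃ y : Fin r → ℝ,
    y = fun i => if (r : ℝ) * x i ≤ 1 then min (1 / x i) (a : ℝ) else 1 := ⟨_, rfl⟩
  have hrR : ∀ _i : Fin r, (1 : ℝ) ≤ r := fun i => by exact_mod_cast Fin.pos i
  have hinv : ∀ i, (r : ℝ) * x i ≤ 1 → (r : ℝ) ≤ 1 / x i := by
    intro i h
    rw [le_div_iff₀ (hx i)]
    exact h
  have hy1 : ∀ i, 1 ≤ y i := by
    intro i
    rw [hy]
    simp only
    split_ifs with h
    · exact le_min ((hrR i).trans (hinv i h)) haR
    · exact le_rfl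
  have hYpos : 0 < ∏ j, y j := prod_pos fun i _ => lt_of_lt_of_le one_pos (hy1 i)
  have hpow := box_pow hra ha' hx hl hy hQ
  set H := univ.filter fun i : Fin r => (r : ℝ) * x i ≤ 1 with hH
  rw [← hC₂] at hpow
  have hHr : H.card ≤ r := by
    have h1 := card_filter_le (univ : Finset (Fin r)) (fun i : Fin r => (r : ℝ) * x i ≤ 1)
    rw [card_univ, Fintype.card_fin] at h1
    exact h1
  -- the bound for the product of the sides
  have hu0 : 0 < (a : ℝ) ^ (-(ε / ((r : ℝ) + 1))) := Real.rpow_pos_of_pos ha0 _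
  have hu1 : (a : ℝ) ^ (-(ε / ((r : ℝ) + 1))) ≤ 1 :=
    Real.rpow_le_one_of_one_le_of_nonpos haR (by linarith)
  have hup : ((a : ℝ) ^ (-(ε / ((r : ℝ) + 1)))) ^ (r + 1) = (a : ℝ) ^ (-ε) := by
    rw [← Real.rpow_natCast, ← Real.rpow_mul ha0.le]
    congr 1
    push_cast
    field_simp
  have hY : ∏ j, y j ≤ C₂ * a * (a : ℝ) ^ (-(ε / ((r : ℝ) + 1))) := by
    have h1 : (a : ℝ) ^ (1 - ε) = a * (a : ℝ) ^ (-ε) := by
      rw [sub_eq_add_neg, Real.rpow_add ha0, Real.rpow_one]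
    have h2 : ((a : ℝ) ^ (-(ε / ((r : ℝ) + 1)))) ^ (r + 1) ≤
        ((a : ℝ) ^ (-(ε / ((r : ℝ) + 1)))) ^ (H.card + 1) :=
      pow_le_pow_of_le_one hu0.le hu1 (by omega)
    have h3 : (∏ j, y j) ^ (H.card + 1) ≤
        (C₂ * a * (a : ℝ) ^ (-(ε / ((r : ℝ) + 1)))) ^ (H.card + 1) := by
      refine hpow.trans ?_
      rw [h1, ← hup, mul_pow, mul_pow]
      have h4 : C₂ ^ (H.card + 1) * ((a : ℝ) ^ H.card * (a *
          ((a : ℝ) ^ (-(ε / ((r : ℝ) + 1)))) ^ (r + 1))) =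
          C₂ ^ (H.card + 1) * (a : ℝ) ^ (H.card + 1) *
            ((a : ℝ) ^ (-(ε / ((r : ℝ) + 1)))) ^ (r + 1) := by ring
      rw [h4]
      exact mul_le_mul_of_nonneg_left h2 (by positivity)
    exact le_of_pow_le_pow_left₀ (by omega) (by positivity) h3
  -- no side is cut by `a`
  have hcut : ∀ i, (r : ℝ) * x i ≤ 1 → y i = 1 / x i := by
    intro i h
    have h1 : y i = min (1 / x i) (a : ℝ) := by
      rw [hy]
      simp only [if_pos h]
    rw [h1]
    apply min_eq_left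
    by_contra hc
    push Not at hc
    have h2 : y i = a := by
      rw [h1]
      exact min_eq_right hc.le
    have h3 : (a : ℝ) ≤ ∏ j, y j := by
      rw [← h2, ← mul_prod_erase univ y (mem_univ i)]
      have h4 : (1 : ℝ) ≤ ∏ j ∈ univ.erase i, y j := Finset.one_le_prod fun j _ => hy1 j
      have h5 := hy1 i
      nlinarith
    have h6 : C₂ * a * (a : ℝ) ^ (-(ε / ((r : ℝ) + 1))) < a := by
      rw [Real.rpow_neg ha0.le]
      have h7 : 0 < (a : ℝ) ^ (ε / ((r : ℝ) + 1)) := Real.rpow_pos_of_pos ha0 _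
      rw [← div_eq_mul_inv, div_lt_iff₀ h7]
      nlinarith
    linarith
  -- the factors
  have hfac : ∀ i, (1 - Real.exp (-(x i / 2)))⁻¹ ≤ (3 + 2 * r) * y i := by
    intro i
    have h1 := inv_one_sub_exp_le (u := x i / 2) (by have := hx i; positivity)
    refine h1.trans ?_
    by_cases h : (r : ℝ) * x i ≤ 1
    · rw [hcut i h]
      have h2 : 1 ≤ 1 / x i := (hrR i).trans (hinv i h)
      have h3 : 1 / (x i / 2) = 2 * (1 / x i) := by
        have := (hx i).ne'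
        field_simp
      rw [h3]
      have h4 : 0 ≤ (r : ℝ) * (1 / x i) := by
        have := (hx i).le
        positivity
      linarith
    · have h0 : y i = 1 := by
        rw [hy]
        simp only [if_neg h]
      rw [h0]
      have h2 : 1 / (x i / 2) ≤ 2 * r := by
        rw [div_le_iff₀ (by have := hx i; positivity)]
        have h5 : 1 < r * x i := not_le.1 h
        linarith
      linarith
  calc ∏ i, (1 - Real.exp (-(x i / 2)))⁻¹ ≤ ∏ i, ((3 + 2 * r) * y i) := by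
        refine prod_le_prod (fun i _ => ?_) fun i _ => hfac i
        rw [inv_nonneg, sub_nonneg, Real.exp_le_one_iff]
        have := hx i
        linarith
    _ = (3 + 2 * r) ^ r * ∏ i, y i := by
        rw [prod_mul_distrib, prod_const, card_univ, Fintype.card_fin]
    _ ≤ (3 + 2 * r) ^ r * (C₂ * a * (a : ℝ) ^ (-(ε / ((r : ℝ) + 1)))) :=
        mul_le_mul_of_nonneg_left hY (by positivity)
    _ = (3 + 2 * r) ^ r * C₂ * (a : ℝ) ^ (1 - ε / (r + 1)) := by
        rw [sub_eq_add_neg, Real.rpow_add ha0, Real.rpow_one]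
        ring

end Vale.Agent.P181.Z.H328
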