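import Vale.Agent.P181.Z.H235.Ana
import Vale.Agent.P181.Z.H328.NpL

/-!
P181: the analysis half in the linear range (the number of letters is at least a multiple of `a`,
the product of the rows is smaller than `a` by a power).
-/

set_option autoImplicit false

namespace Vale.Agent.P181.Z.H328

open Real Vale.Agent.P181.Z.H582 Vale.Agent.P181.Z.H483 Vale.Agent.P181.H921.Z
  Vale.Agent.P181.Z.H235

/-- The final comparison, linear range. -/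
theorem fin_ineqL {q z lg h n x1 t lgP S es pr : ℝ} (hq : 1 ≤ q) (hlg : 0 ≤ lg) (hh : 2 ≤ h)
    (hz : 1000 * (h + 1) * (1 + lg) ≤ z) (hn : n ≤ q ^ 2 * z ^ 2)
    (hx0 : 0 < x1) (h4 : 4 ≤ n * x1 ^ 2) (ht : q ^ 2 * z ^ 32 ≤ t) (hP : lgP ≤ z)
    (hS : S ≤ n * (1 + 2 * h * (1 + lg))) (hS0 : 0 ≤ S) (hes : es - 1 ≤ x1)
    (hpr : pr ≤ x1 * (t / 4)) :
    pr + h * (q * z ^ 9) + h * (q * z ^ 8) + lgP + (es - 1) * S ≤ x1 / 2 * t := by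
  have hz1 : 1000 * (h + 1) ≤ z := by nlinarith
  have hz3 : 3000 ≤ z := by linarith
  have hzh : 1 + 2 * h * (1 + lg) ≤ z := by nlinarith
  have hz0 : 0 < z := by linarith
  have hq0 : 0 < q := by linarith
  have e1 : 2 ≤ q * z * x1 := by
    by_contra hc
    push Not at hc
    have h5 : (q * z * x1) ^ 2 < 2 ^ 2 := by
      apply pow_lt_pow_left₀ hc (by positivity) (by norm_num)
    have h6 : n * x1 ^ 2 ≤ q ^ 2 * z ^ 2 * x1 ^ 2 := mul_le_mul_of_nonneg_right hn (by positivity)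
    nlinarith
  have e2 : (es - 1) * S ≤ x1 * (q ^ 2 * z ^ 3) := by
    have h5 : S ≤ q ^ 2 * z ^ 2 * z := by
      refine hS.trans ?_
      have h7 : 0 ≤ 1 + 2 * h * (1 + lg) := by positivity
      exact mul_le_mul hn hzh h7 (by positivity)
    calc (es - 1) * S ≤ x1 * S := mul_le_mul_of_nonneg_right hes hS0
      _ ≤ x1 * (q ^ 2 * z ^ 2 * z) := mul_le_mul_of_nonneg_left h5 hx0.le
      _ = _ := by ring
  have e3 : x1 * (q ^ 2 * z ^ 32) / 4 ≤ x1 * (t / 4) := by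
    have := mul_le_mul_of_nonneg_left ht hx0.le
    linarith
  set Q := x1 * (q ^ 2 * z ^ 3) with hQ
  have hQ0 : 0 < Q := by positivity
  have e5 : h * (q * z ^ 9) + h * (q * z ^ 8) + lgP ≤ 3 * (q * z ^ 10) := by
    have h7 : z ^ 8 ≤ z ^ 9 := pow_le_pow_right₀ (by linarith) (by norm_num)
    have h8 : h * (q * z ^ 8) ≤ h * (q * z ^ 9) := by gcongr
    have h9 : h * (q * z ^ 9) ≤ z * (q * z ^ 9) := by
      have : h ≤ z := by linarith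
      gcongr
    have h10 : z * (q * z ^ 9) = q * z ^ 10 := by ring
    have h6 : z ≤ q * z ^ 10 := by
      have h11 : z ≤ z ^ 10 := le_self_pow₀ (by linarith) (by norm_num)
      have h12 : 1 * z ^ 10 ≤ q * z ^ 10 := by gcongr
      linarith
    linarith
  have e6 : 2 * (q * z ^ 10) ≤ Q * z ^ 8 := by
    have h5 := mul_le_mul_of_nonneg_right e1 (by positivity : 0 ≤ q * z ^ 10)
    calc 2 * (q * z ^ 10) ≤ q * z * x1 * (q * z ^ 10) := h5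
      _ = Q * z ^ 8 := by rw [hQ]; ring
  have e7 : x1 * (q ^ 2 * z ^ 32) / 4 = Q * z ^ 29 / 4 := by rw [hQ]; ring
  have e8 : 1 + 2 * z ^ 8 ≤ z ^ 29 / 4 := by
    have h5 : z ^ 29 = z ^ 8 * z ^ 21 := by ring
    have h6 : (3000 : ℝ) ^ 21 ≤ z ^ 21 := pow_le_pow_left₀ (by norm_num) hz3 21
    have h7 : (1 : ℝ) ≤ z ^ 8 := one_le_pow₀ (by linarith)
    have h8 : (12 : ℝ) ≤ z ^ 21 := by linarith [show (12 : ℝ) ≤ 3000 ^ 21 by norm_num]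
    rw [h5]
    have h10 : z ^ 8 * 12 ≤ z ^ 8 * z ^ 21 := mul_le_mul_of_nonneg_left h8 (by linarith)
    linarith
  have e9 : Q * (1 + 2 * z ^ 8) ≤ Q * (z ^ 29 / 4) := mul_le_mul_of_nonneg_left e8 hQ0.le
  have e10 : Q * (1 + 2 * z ^ 8) = Q + 2 * (Q * z ^ 8) := by ring
  have e11 : Q * (z ^ 29 / 4) = Q * z ^ 29 / 4 := by ring
  have e12 : x1 / 2 * t = x1 * (t / 4) + x1 * (t / 4) := by ring
  have e13 : 0 < q * z ^ 10 := by positivity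
  linarith

/-- `x_1 ≤ 1`. -/
theorem x1_leL {q z lg h n x1 m1 c1 : ℝ} (hq : 1 ≤ q) (hlg : 0 ≤ lg) (hh : 2 ≤ h)
    (hz : 1000 * (h + 1) * (1 + lg) ≤ z) (hn : n ≤ q ^ 2 * z ^ 2)
    (hc : c1 ≤ q * z ^ 9) (hm : q ^ 2 * z ^ 32 / (8 * (h + 1)) ≤ m1)
    (hx : x1 * m1 ≤ n + c1) : x1 ≤ 1 := by
  have hz1 : 1000 * (h + 1) ≤ z := by nlinarith
  have hz3 : 3000 ≤ z := by linarith
  have hz0 : 0 < z := by linarith
  have hq0 : 0 < q := by linarith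
  have h1 : q ^ 2 * z ^ 32 / (8 * (h + 1)) > 0 := by positivity
  by_contra hc1
  push Not at hc1
  have h2 : m1 < x1 * m1 := by nlinarith
  have h3 : q ^ 2 * z ^ 31 ≤ q ^ 2 * z ^ 32 / (8 * (h + 1)) := by
    rw [le_div_iff₀ (by positivity)]
    have h4 : 8 * (h + 1) ≤ z := by linarith
    calc q ^ 2 * z ^ 31 * (8 * (h + 1)) ≤ q ^ 2 * z ^ 31 * z := by gcongr
      _ = q ^ 2 * z ^ 32 := by ring
  have h5 : n + c1 ≤ 2 * (q ^ 2 * z ^ 9) := by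
    have h6 : q ≤ q ^ 2 := by nlinarith
    have h7 : q * z ^ 9 ≤ q ^ 2 * z ^ 9 := by gcongr
    have h8 : z ^ 2 ≤ z ^ 9 := pow_le_pow_right₀ (by linarith) (by norm_num)
    have h9 : q ^ 2 * z ^ 2 ≤ q ^ 2 * z ^ 9 := by gcongr
    linarith
  have h6 : 2 * (q ^ 2 * z ^ 9) ≤ q ^ 2 * z ^ 31 := by
    have h7 : (3000 : ℝ) ^ 22 ≤ z ^ 22 := pow_le_pow_left₀ (by norm_num) hz3 22
    have h8 : (2 : ℝ) ≤ z ^ 22 := by linarith [show (2 : ℝ) ≤ 3000 ^ 22 by norm_num]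
    calc 2 * (q ^ 2 * z ^ 9) ≤ z ^ 22 * (q ^ 2 * z ^ 9) := by gcongr
      _ = q ^ 2 * z ^ 31 := by ring
  linarith

theorem x1_leL' {k a : ℕ} {q z lg : ℝ} (hq1 : 1 ≤ q) (hlg0 : 0 ≤ lg)
    (hz1 : 1000 * ((k : ℝ) + 2 + 1) * (1 + lg) ≤ z) {x m : Fin (k + 2) → ℝ} {c0 : ℝ}
    (hx : ∀ i, 0 < x i) (hmean : ∀ i, mean (Lt a (k + 2)) x i = m i - c0 / x i)
    (hnle : ∏ i, (1 - exp (-(x i / 2)))⁻¹ ≤ q ^ 2 * z ^ 2)
    (hc4 : c0 ≤ q * z ^ 9)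
    (hm1 : q ^ 2 * z ^ 32 / (8 * ((k : ℝ) + 3)) ≤ m 1) : x 1 ≤ 1 := by
  have e1 := H921.Z.xe (x := x) hx (L := Lt a (k + 2)) Lt_ne 1
  have e2 : x 1 * mean (Lt a (k + 2)) x 1 ≤ ∏ i, (1 - exp (-(x i / 2)))⁻¹ :=
    le_trans e1 (sum_half_le hx Lt_le)
  rw [hmean 1, mul_sub, mul_div_cancel₀ _ (hx 1).ne'] at e2
  refine x1_leL (h := (k : ℝ) + 2) (lg := lg) hq1 hlg0 (h_ge k) hz1 hnle hc4 ?_ ?_ (m1 := m 1)
  · have : (k : ℝ) + 2 + 1 = (k : ℝ) + 3 := by ring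
    rw [this]
    exact hm1
  · linarith

/-- comparison, linear range -/
theorem comparL {k a t : ℕ} {q z lgP : ℝ} (hq1 : 1 ≤ q) (hlg0 : 0 ≤ log (a : ℝ))
    (hz1 : 1000 * ((k : ℝ) + 2 + 1) * (1 + log (a : ℝ)) ≤ z) {x m : Fin (k + 2) → ℝ} {c0 : ℝ}
    (hx : ∀ i, 0 < x i) (hmono : Monotone x)
    (hnle : ∏ i, (1 - exp (-(x i / 2)))⁻¹ ≤ q ^ 2 * z ^ 2)
    (hx11 : x 1 ≤ 1) (ht : q ^ 2 * z ^ 32 ≤ t) (hc4 : c0 ≤ q * z ^ 9)
    (hP : lgP ≤ z) (lam : Fin (k + 2) → ℕ)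
    (hlam : dotp x lam - ∑ i, x i * m i ≤ x 1 * ((t : ℝ) / 4))
    (J : (Fin (k + 2) → ℕ) → Prop) [DecidablePred J]
    (hJ : ∀ v, J v → ∃ j : Fin (k + 2), 1 ≤ j ∧ v j ≠ 0) :
    dotp x lam - ∑ i, x i * m i + ∑ _i : Fin (k + 2), c0 + ((k + 2 : ℕ) : ℝ) * (q * z ^ 8) +
      lgP + (exp (x 1 / 2) - 1) * ∑ v ∈ (Lt a (k + 2)).filter J,
        exp (-dotp x v) / (1 - exp (x 1 / 2) * exp (-dotp x v)) ≤ x 1 / 2 * t := by
  have hS2 := s1 (a := a) (x := x) hx (L := Lt a (k + 2)) Lt_le 1 (J := J)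
    (fun v _ hJv => by
      obtain ⟨j, hj1, hj⟩ := hJ v hJv
      exact ⟨j, hmono hj1, hj⟩) (σ := x 1 / 2) le_rfl
  rw [hcast] at hS2
  have hx1 := hx 1
  have e1 := fin_ineqL (t := (t : ℝ)) (lgP := lgP) (es := exp (x 1 / 2))
    (h := (k : ℝ) + 2) (lg := log (a : ℝ)) hq1 hlg0 (h_ge k) hz1 hnle hx1
    (n_bounds hx hmono).2.2 ht hP hS2
    (sum_nonneg' _ _ fun v hv => by
      obtain ⟨j, hj1, hj⟩ := hJ v (Finset.mem_filter.1 hv).2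
      exact jdot_gt hx hmono hj1 hj) (by
      have := exp_sub_one_le (s := x 1 / 2) (by linarith) (by linarith)
      linarith) hlam
  have e2 : ∑ _i : Fin (k + 2), c0 ≤ ((k : ℝ) + 2) * (q * z ^ 9) := by
    rw [Finset.sum_const, Finset.card_univ, Fintype.card_fin, nsmul_eq_mul, hcast]
    exact mul_le_mul_of_nonneg_left hc4 (by linarith [h_ge k])
  rw [hcast]
  linarith

theorem smallL {n B q z nnv : ℝ} (hq1 : 1 ≤ q) (hz0 : 1 ≤ z) (hn : nnv ≤ n)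
    (hnle : n ≤ q ^ 2 * z ^ 2) (hB : 0 < B) (hlogz : log B + 38 ≤ z) :
    B * exp (-(1 / (q * z) * (q * z ^ 8)) + 38 * (1 / (q * z)) ^ 2 * nnv) ≤ 1 := by
  have hq0 : 0 < q := by linarith
  have hz00 : 0 < z := by linarith
  refine le_trans ?_ (small hq1 hz0 hn hnle hB hlogz)
  refine mul_le_mul_of_nonneg_left (exp_le_exp.2 ?_) hB.le
  have h1 : 1 / (q * z) * (q * z ^ 2) ≤ 1 / (q * z) * (q * z ^ 8) := by
    have h2 : z ^ 2 ≤ z ^ 8 := pow_le_pow_right₀ hz0 (by norm_num)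
    gcongr
  linarith

/-- the point `θ` with the extra factor `a ^ C0`, linear range -/
theorem pointL {k E C0 a N t : ℕ} (ha2 : 2 ≤ a) {q z c0 : ℝ} (hq1 : 1 ≤ q)
    (hz1 : 1000 * ((k : ℝ) + 2 + 1) * (1 + log (a : ℝ)) ≤ z)
    (hzE : (100 + 4 * (((E + C0 : ℕ) : ℝ) + ((k : ℝ) + 2))) * (1 + log (a : ℝ)) ≤ z)
    (hN1 : 1 ≤ N) (hN : q ^ 2 * z ^ 16 / 8 ≤ N) (hN2 : (N : ℝ) ≤ (a : ℝ) ^ 2)
    (ht : q ^ 2 * z ^ 32 ≤ t)
    (x m : Fin (k + 2) → ℝ) (hx : ∀ i, 0 < x i) (hmono : Monotone x)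
    (hc4 : c0 ≤ q * z ^ 9)
    (hmean : ∀ i, mean (Lt a (k + 2)) x i = m i - c0 / x i)
    (hx11 : x 1 ≤ 1)
    (hnle : ∏ i, (1 - exp (-(x i / 2)))⁻¹ ≤ q ^ 2 * z ^ 2)
    (lam : Fin (k + 2) → ℕ)
    (hlam : ∑ i, x i * ((lam i : ℝ) - m i) ≤ x 1 * ((t : ℝ) / 4))
    (J : (Fin (k + 2) → ℕ) → Prop) [DecidablePred J]
    (hJ : ∀ v, J v → ∃ j : Fin (k + 2), 1 ≤ j ∧ v j ≠ 0)
    (f : (Fin (k + 2) → ℕ) → ℝ) (P : ℝ) (hP : 0 < P) (hPE : P ≤ ((N * a + 1 : ℕ) : ℝ) ^ E)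
    (h1 : ∀ θ, f θ ≤ cnt (Lt a (k + 2)) N θ)
    (h2 : ∀ w, 0 < cnt (Lt a (k + 2)) N w → ∃ θ : Fin (k + 2) → ℕ,
        (∀ r : ℕ, ∑ i : Fin (k + 2), (if r ≤ (i : ℕ) then θ i else 0) ≤
          ∑ i : Fin (k + 2), (if r ≤ (i : ℕ) then w i else 0)) ∧
          (cnt (Lt a (k + 2)) N w : ℝ) ≤ P * f θ) :
    ∃ θ : Fin (k + 2) → ℕ, (∀ i, |x i * (m i - θ i) - c0| < q * z ^ 8) ∧
      (a : ℝ) ^ C0 * ((NTs (Lt a (k + 2)) J lam t).ncard : ℝ) ≤ f θ := by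
  have haR : (2 : ℝ) ≤ a := by exact_mod_cast ha2
  have ha0 : (0 : ℝ) < a := by linarith
  have hlg0 : 0 ≤ log (a : ℝ) := log_nonneg (by linarith)
  have hk0 : (0 : ℝ) ≤ k := Nat.cast_nonneg k
  have hz3 : 3000 ≤ z := by
    have e1 : 1000 * ((k : ℝ) + 2 + 1) * 1 ≤ 1000 * ((k : ℝ) + 2 + 1) * (1 + log (a : ℝ)) :=
      mul_le_mul_of_nonneg_left (by linarith) (by positivity)
    linarith
  have hA : (0 : ℝ) < (a : ℝ) ^ C0 := by positivity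
  have hA1 : (1 : ℝ) ≤ (a : ℝ) ^ C0 := one_le_pow₀ (by linarith)
  have hPE' : P * (a : ℝ) ^ C0 ≤ ((N * a + 1 : ℕ) : ℝ) ^ (E + C0) := by
    rw [pow_add]
    have h3 : (a : ℝ) ^ C0 ≤ ((N * a + 1 : ℕ) : ℝ) ^ C0 := by
      refine pow_le_pow_left₀ ha0.le ?_ C0
      have : a ≤ N * a + 1 := by nlinarith
      exact_mod_cast this
    exact mul_le_mul hPE h3 hA.le (by positivity)
  have hP' : 0 < P * (a : ℝ) ^ C0 := by positivity
  have hx0 := hx 0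
  have hx1 := hx 1
  have hlogz := logP_le ha2 hzE hN2 hP' hPE'
  have hB : (0 : ℝ) < 2 * (P * (a : ℝ) ^ C0) * ((N * a + 1 : ℕ) : ℝ) ^ (k + 2) := by positivity
  have hqz : 0 < q * z := by
    have : 0 < q := by linarith
    have : 0 < z := by linarith
    positivity
  obtain ⟨θ, hθ1, hθ2⟩ := core_x (Lt a (k + 2)) Lt_ne x hx hmono m (fun _ => c0) hmean N
    (fun θ => f θ / (a : ℝ) ^ C0) (P * (a : ℝ) ^ C0) hP'
    (fun θ => by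
      rw [div_le_iff₀ hA]
      have e1 := h1 θ
      have e2 : (0 : ℝ) ≤ cnt (Lt a (k + 2)) N θ := Nat.cast_nonneg _
      nlinarith)
    (fun w hw => by
      obtain ⟨θ, hθ, hw2⟩ := h2 w hw
      refine ⟨θ, hθ, hw2.trans (le_of_eq ?_)⟩
      field_simp)
    (1 / (q * z)) (q * z ^ 8) (by positivity) (by
      rw [div_le_iff₀ hqz]
      nlinarith) (x 0 / 2) (by linarith)
    (fun v hv => by
      have := dot_ge hx hmono v (Lt_ne v hv)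
      linarith)
    (trunc hq1 hlg0 hz1 hx hmono hnle hx11 hN) (((N * a + 1 : ℕ) : ℝ) ^ (k + 2)) (by positivity)
    (card_weights_le (Lt a (k + 2)) a N Lt_le)
    (smallL hq1 (by linarith) (nn_le_n hx) hnle hB hlogz) J (x 1 / 2) (by linarith)
    (fun v _ hv => by
      obtain ⟨j, hj1, hj⟩ := hJ v hv
      exact jdot_gt hx hmono hj1 hj)
    lam t (comparL hq1 hlg0 hz1 hx hmono hnle hx11 ht hc4 (by linarith) lam (by
      have e : dotp x lam - ∑ i, x i * m i = ∑ i, x i * ((lam i : ℝ) - m i) := by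
        unfold dotp
        rw [← Finset.sum_sub_distrib]
        exact Finset.sum_congr rfl fun i _ => by ring
      rw [e]
      exact hlam) J hJ)
  refine ⟨θ, hθ1, ?_⟩
  rw [le_div_iff₀ hA] at hθ2
  linarith

/-- the powers of `a` used, in terms of `q = a^(1/2 - s/2)` and `z = a^(s/32)` -/
theorem powersL {a : ℝ} (ha : 0 < a) (s : ℝ) :
    (a ^ (1 / 2 - s / 2)) ^ 2 = a ^ (1 - s) ∧
    (a ^ (1 / 2 - s / 2)) ^ 2 * (a ^ (s / 32)) ^ 32 = a ∧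
    a ^ (1 / 2 - s / 4) = a ^ (1 / 2 - s / 2) * (a ^ (s / 32)) ^ 8 ∧
    a ^ (1 / 2 - s / 2 + s / 32) = a ^ (1 / 2 - s / 2) * a ^ (s / 32) := by
  have hp : ∀ (u : ℝ) (n : ℕ), (a ^ u) ^ n = a ^ (u * n) := fun u n => by
    rw [← rpow_natCast, ← rpow_mul ha.le]
  refine ⟨?_, ?_, ?_, ?_⟩
  · rw [hp]
    congr 1
    push_cast
    ring
  · rw [hp, hp, ← rpow_add ha]
    have : (1 / 2 - s / 2) * ((2 : ℕ) : ℝ) + s / 32 * ((32 : ℕ) : ℝ) = 1 := by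
      push_cast
      ring
    rw [this, rpow_one]
  · rw [hp, ← rpow_add ha]
    congr 1
    push_cast
    ring
  · rw [← rpow_add ha]

/-- **The analysis half, linear range.** -/
theorem anaL (k E C0 : ℕ) {s : ℝ} (hs : 0 < s) (hs1 : s < 1 / 4) (K : ℝ) (hK : 0 ≤ K) :
    ∃ a0 : ℕ, ∀ a : ℕ, a0 ≤ a → ∀ N t : ℕ, (a : ℝ) / 8 ≤ N → (N : ℝ) ≤ (a : ℝ) ^ 2 →
    (a : ℝ) ≤ t →
    ∀ m : Fin (k + 2) → ℝ, (∀ i, 0 < m i) → Antitone m →
      (a : ℝ) / (8 * ((k : ℝ) + 3)) ≤ m 1 →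
      ∏ i, max 1 (m i / a) ≤ (a : ℝ) ^ (1 - ((k : ℝ) + 3) * s) →
    ∃ x : Fin (k + 2) → ℝ, (∀ i, 0 < x i) ∧ Monotone x ∧
      (∀ i, mean (Lt a (k + 2)) x i = m i - K * (a : ℝ) ^ (1 / 2 - s / 4) / x i) ∧ x 1 ≤ 1 ∧
      2 ≤ x 0 * a ∧ 2 ≤ x 1 * (a : ℝ) ^ (1 / 2 - s / 2 + s / 32) ∧
      ∀ lam : Fin (k + 2) → ℕ,
        ∑ i, x i * ((lam i : ℝ) - m i) ≤ x 1 * ((t : ℝ) / 4) →
      ∀ (J : (Fin (k + 2) → ℕ) → Prop) [DecidablePred J],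
        (∀ v, J v → ∃ j : Fin (k + 2), 1 ≤ j ∧ v j ≠ 0) →
      ∀ (f : (Fin (k + 2) → ℕ) → ℝ) (P : ℝ), 0 < P → P ≤ ((N * a + 1 : ℕ) : ℝ) ^ E →
        (∀ θ, f θ ≤ cnt (Lt a (k + 2)) N θ) →
        (∀ w, 0 < cnt (Lt a (k + 2)) N w → ∃ θ : Fin (k + 2) → ℕ,
          (∀ r : ℕ, ∑ i : Fin (k + 2), (if r ≤ (i : ℕ) then θ i else 0) ≤
            ∑ i : Fin (k + 2), (if r ≤ (i : ℕ) then w i else 0)) ∧
            (cnt (Lt a (k + 2)) N w : ℝ) ≤ P * f θ) →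
        ∃ θ : Fin (k + 2) → ℕ,
          (∀ i, |x i * (m i - θ i) - K * (a : ℝ) ^ (1 / 2 - s / 4)| < (a : ℝ) ^ (1 / 2 - s / 4)) ∧
          (a : ℝ) ^ C0 * ((NTs (Lt a (k + 2)) J lam t).ncard : ℝ) ≤ f θ := by
  have hk0 : (0 : ℝ) ≤ k := Nat.cast_nonneg k
  obtain ⟨C, hC1, a1, hnp⟩ := npL (k + 2) (ε := ((k : ℝ) + 3) * s) (by positivity)
  have hE0 : (0 : ℝ) ≤ ((E + C0 : ℕ) : ℝ) := Nat.cast_nonneg _
  set K' : ℝ := 1000 * ((k : ℝ) + 2 + 1) + C + K + (100 + 4 * (((E + C0 : ℕ) : ℝ) + ((k : ℝ) + 2)))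
    with hK'
  have hK'0 : 0 ≤ K' := by
    rw [hK']
    positivity
  obtain ⟨a0, ha0⟩ := ev_log K' hK'0 (show 0 < s / 32 by positivity)
  refine ⟨max (max a0 a1) 2, fun a ha N t hN hN2 ht m hm hanti hm1 hreg => ?_⟩
  have ha2 : 2 ≤ a := le_trans (le_max_right _ _) ha
  have haR : (2 : ℝ) ≤ a := by exact_mod_cast ha2
  have hapos : (0 : ℝ) < a := by linarith
  have hzz := ha0 a (le_trans ((le_max_left _ _).trans (le_max_left _ _)) ha)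
  have hnpa := hnp a (le_trans ((le_max_right _ _).trans (le_max_left _ _)) ha)
  obtain ⟨p1, p2, p3, p4⟩ := powersL hapos s
  have hN0 : (0 : ℝ) < N := lt_of_lt_of_le (by positivity) hN
  have hN1 : 1 ≤ N := by
    have : 0 < N := by exact_mod_cast hN0
    omega
  have hexp : (1 : ℝ) - ((k : ℝ) + 3) * s / (((k + 2 : ℕ) : ℝ) + 1) = 1 - s := by
    push_cast
    have h3 : (k : ℝ) + 2 + 1 = (k : ℝ) + 3 := by ring
    rw [h3]
    have h4 : (k : ℝ) + 3 ≠ 0 := by positivity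
    field_simp
  rw [hexp, ← p1] at hnpa
  have hq1 : 1 ≤ (a : ℝ) ^ (1 / 2 - s / 2) := one_le_rpow (by linarith) (by linarith)
  rw [p3, p4]
  generalize (a : ℝ) ^ (1 / 2 - s / 2) = q at *
  generalize (a : ℝ) ^ (s / 32) = z at *
  have hlg0 : 0 ≤ log (a : ℝ) := log_nonneg (by linarith)
  have hle : ∀ r : ℝ, r ≤ K' → r * (1 + log (a : ℝ)) ≤ z := fun r hr =>
    le_trans (mul_le_mul_of_nonneg_right hr (by linarith)) hzz
  have hle' : ∀ r : ℝ, 0 ≤ r → r ≤ K' → r ≤ z := fun r hr0 hr =>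
    le_trans (by nlinarith) (hle r hr)
  have hz1 : 1000 * ((k : ℝ) + 2 + 1) * (1 + log (a : ℝ)) ≤ z := hle _ (by
    rw [hK']
    linarith)
  have hzE : (100 + 4 * (((E + C0 : ℕ) : ℝ) + ((k : ℝ) + 2))) * (1 + log (a : ℝ)) ≤ z := hle _ (by
    rw [hK']
    linarith)
  have hCz : C ≤ z := hle' _ (by linarith) (by
    rw [hK']
    linarith)
  have hKz : K ≤ z := hle' _ hK (by
    rw [hK']
    linarith)
  have hz11 : 1 ≤ z := hC1.trans hCz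
  have hz0 : 0 < z := by linarith
  have hq0 : 0 < q := by linarith
  have hc0 : 0 ≤ K * (q * z ^ 8) := by positivity
  have hc4 : K * (q * z ^ 8) ≤ q * z ^ 9 := by
    have e1 : K * (q * z ^ 8) ≤ z * (q * z ^ 8) := mul_le_mul_of_nonneg_right hKz (by positivity)
    have e2 : z * (q * z ^ 8) = q * z ^ 9 := by ring
    linarith
  obtain ⟨x, hx, hmono, hmean⟩ := saddle (le_trans (by norm_num) ha2) hc0 m hm hanti
  -- the number of typical letters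
  have hnle : ∏ i, (1 - exp (-(x i / 2)))⁻¹ ≤ q ^ 2 * z ^ 2 := by
    have e1 := hnpa x m hx (fun i => by
      have h5 := hmean i
      have h3 : 0 ≤ K * (q * z ^ 8) / x i := div_nonneg hc0 (hx i).le
      have h4 : ∑ v ∈ Lt a (k + 2), (v i : ℝ) * gm (dt x v) = mean (Lt a (k + 2)) x i := rfl
      rw [h4]
      linarith) hreg
    refine e1.trans ?_
    have e2 : C ≤ z ^ 2 := by nlinarith
    rw [mul_comm (q ^ 2)]
    exact mul_le_mul_of_nonneg_right e2 (by positivity)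
  have hm1' : q ^ 2 * z ^ 32 / (8 * ((k : ℝ) + 3)) ≤ m 1 := by
    rw [p2]
    exact hm1
  have hx11 := x1_leL' hq1 hlg0 hz1 hx hmean hnle hc4 hm1'
  obtain ⟨-, h2, h4⟩ := n_bounds hx hmono
  have hx0 := hx 0
  have hx1 := hx 1
  refine ⟨x, hx, hmono, hmean, hx11, ?_, ?_, ?_⟩
  · have e1 := mul_le_mul_of_nonneg_right hnle hx0.le
    have e2 : q ^ 2 * z ^ 2 ≤ a := by
      rw [← p2]
      have : z ^ 2 ≤ z ^ 32 := pow_le_pow_right₀ hz11 (by norm_num)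
      gcongr
    have e3 := mul_le_mul_of_nonneg_right e2 hx0.le
    linarith
  · by_contra hc
    push Not at hc
    have e1 := mul_le_mul_of_nonneg_right hnle (sq_nonneg (x 1))
    have e2 : (x 1 * (q * z)) ^ 2 < 2 ^ 2 := pow_lt_pow_left₀ hc (by positivity) (by norm_num)
    have e3 : q ^ 2 * z ^ 2 * x 1 ^ 2 = (x 1 * (q * z)) ^ 2 := by ring
    linarith
  · intro lam hlam J _ hJ f P hP hPE h1 h2
    have hN' : q ^ 2 * z ^ 16 / 8 ≤ N := by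
      refine le_trans ?_ hN
      rw [← p2]
      have : z ^ 16 ≤ z ^ 32 := pow_le_pow_right₀ hz11 (by norm_num)
      gcongr
    have ht' : q ^ 2 * z ^ 32 ≤ t := by
      rw [p2]
      exact ht
    exact pointL ha2 hq1 hz1 hzE hN1 hN' hN2 ht' x m hx hmono hc4 hmean hx11 hnle lam hlam J hJ
      f P hP hPE h1 h2

end Vale.Agent.P181.Z.H328
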