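import Vale.Agent.P181.Z.H328.Steps

/-!
P181, the adaptive Pieri steps, with general windows `w i ± u i`.
-/

set_option autoImplicit false

open Finset

namespace Vale.Agent.P181.Z.H328

/-- The bound for the number of Pieri boxes. -/
lemma kap_leW (h E : ℕ) (e : ℕ → ℕ) (he : ∀ i, e i ≤ E) (G : ℕ) (w u : ℕ → ℝ)
    (hu : ∀ i, i < h + 2 → 0 ≤ u i) (hm : ∀ i, i + 1 < h + 2 → u (i + 1) ≤ u i) (K : ℝ)
    (hK : 1 + (1 + E) * KK E (h + 1) ≤ K)
    (hw : ∀ i, i + 1 < h + 2 → K * (u i - u (i + 1)) ≤ w i - w (i + 1))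
    (hG : G ≤ u 1) (δ : ℕ → ℤ) (hδ : ∀ i, i < h + 2 → |(δ i : ℝ) - w i| ≤ u i) :
    ∀ j, j < h + 2 → (kap e G δ j : ℝ) ≤ KK E j * u j := by
  have hE : (0 : ℝ) ≤ E := Nat.cast_nonneg E
  intro j
  induction j with
  | zero =>
    intro hj
    change ((0 : ℤ) : ℝ) ≤ 0 * u 0
    simp
  | succ j ih =>
    intro hj
    have i1 := ih (by omega)
    have hk : kap e G δ (j + 1) =
        max 0 (δ (j + 1) - δ j + (1 + e j) * kap e G δ j + if j = 0 then (G : ℤ) else 0) := rfl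
    have hKK : KK E (j + 1) = 3 + (1 + (E : ℝ)) * KK E j := rfl
    rcases max_cases (0 : ℤ) (δ (j + 1) - δ j + (1 + e j) * kap e G δ j +
      if j = 0 then (G : ℤ) else 0) with ⟨h5, _⟩ | ⟨h5, _⟩
    · rw [hk, h5, Int.cast_zero]
      exact mul_nonneg (KK_nonneg E _) (hu _ hj)
    · rw [hk, h5, hKK]
      have h4 : (if j = 0 then (G : ℝ) else 0) ≤ u (j + 1) := by
        by_cases h0 : j = 0
        · subst h0
          rw [if_pos rfl]
          exact hG
        · rw [if_neg h0]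
          exact hu _ hj
      have h1 := abs_le.1 (hδ (j + 1) hj)
      have h2 := abs_le.1 (hδ j (by omega))
      have h3 := hw j hj
      have h6 := hm j hj
      have hej : (e j : ℝ) ≤ E := by exact_mod_cast he j
      have h7 : (0 : ℝ) ≤ kap e G δ j := by exact_mod_cast kap_nonneg e G δ j
      have h8 : (1 + (e j : ℝ)) * kap e G δ j ≤ (1 + E) * (KK E j * u j) := by
        have h9 : (1 + (e j : ℝ)) * kap e G δ j ≤ (1 + E) * kap e G δ j :=
          mul_le_mul_of_nonneg_right (by linarith) h7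
        exact h9.trans (mul_le_mul_of_nonneg_left i1 (by linarith))
      have h10 : KK E j ≤ KK E (h + 1) := KK_mono E (by omega)
      have h11 : 0 ≤ K - 1 - (1 + (E : ℝ)) * KK E j := by
        have h12 : (1 + (E : ℝ)) * KK E j ≤ (1 + E) * KK E (h + 1) :=
          mul_le_mul_of_nonneg_left h10 (by linarith)
        linarith
      have h13 : 0 ≤ (K - 1 - (1 + (E : ℝ)) * KK E j) * (u j - u (j + 1)) :=
        mul_nonneg h11 (by linarith)
      have h14 : (1 + (E : ℝ)) * (KK E j * u j) = (1 + (E : ℝ)) * KK E j * u j := by ring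
      rw [h14] at h8
      push_cast
      nlinarith

/-- **The steps, general windows.** -/
theorem stepsW (h E : ℕ) : ∃ K : ℝ, 1 ≤ K ∧ ∀ (e : Fin (h + 2) → ℕ) (_ : ∀ i, e i ≤ E) (G : ℕ)
    (w u : Fin (h + 2) → ℝ) (_ : ∀ i, 0 ≤ u i) (_ : Antitone u)
    (_ : ∀ i j, i ≤ j → K * (u i - u j) ≤ w i - w j) (_ : K * u (Fin.last _) ≤ w (Fin.last _))
    (_ : (G : ℝ) ≤ u 1) (δ : Fin (h + 2) → ℤ) (_ : ∀ i, |(δ i : ℝ) - w i| ≤ u i),
    ∃ k ν : Fin (h + 2) → ℕ, k 0 = 0 ∧
      (∀ j, δ j = (ν j : ℤ) + k j + ∑ i ∈ univ.filter (fun i => j ≤ i), (e i : ℤ) * k i) ∧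
      Antitone ν ∧ ν 1 + G ≤ ν 0 ∧ ∀ i, (k i : ℝ) ≤ K * u i := by
  have hK1 : (1 : ℝ) ≤ 1 + (1 + E) * KK E (h + 1) := by
    have h1 := KK_nonneg E (h + 1)
    have h2 : (0 : ℝ) ≤ E := Nat.cast_nonneg E
    have h3 : 0 ≤ (1 + (E : ℝ)) * KK E (h + 1) := mul_nonneg (by linarith) h1
    linarith
  refine ⟨1 + (1 + E) * KK E (h + 1), hK1, ?_⟩
  intro e he G w u hu hm hw hlast hG δ hδ
  classical
  -- extend everything to the natural numbers
  let e' : ℕ → ℕ := fun i => if hi : i < h + 2 then e ⟨i, hi⟩ else 0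
  let u' : ℕ → ℝ := fun i => if hi : i < h + 2 then u ⟨i, hi⟩ else 1
  let w' : ℕ → ℝ := fun i => if hi : i < h + 2 then w ⟨i, hi⟩ else 1
  let δ' : ℕ → ℤ := fun i => if hi : i < h + 2 then δ ⟨i, hi⟩ else 0
  have e'_eq : ∀ i : Fin (h + 2), e' i = e i := fun i => dif_pos i.isLt
  have u'_eq : ∀ i : Fin (h + 2), u' i = u i := fun i => dif_pos i.isLt
  have w'_eq : ∀ i : Fin (h + 2), w' i = w i := fun i => dif_pos i.isLt
  have δ'_eq : ∀ i : Fin (h + 2), δ' i = δ i := fun i => dif_pos i.isLt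
  have e2 : ∀ i (hi : i < h + 2), e' i = e ⟨i, hi⟩ := fun i hi => dif_pos hi
  have u2 : ∀ i (hi : i < h + 2), u' i = u ⟨i, hi⟩ := fun i hi => dif_pos hi
  have w2 : ∀ i (hi : i < h + 2), w' i = w ⟨i, hi⟩ := fun i hi => dif_pos hi
  have δ2 : ∀ i (hi : i < h + 2), δ' i = δ ⟨i, hi⟩ := fun i hi => dif_pos hi
  have hb := kap_leW h E e' (fun i => by
    by_cases hi : i < h + 2
    · rw [e2 i hi]
      exact he _
    · change (if hi : i < h + 2 then e ⟨i, hi⟩ else 0) ≤ E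
      rw [dif_neg hi]
      exact Nat.zero_le _) G w' u' (fun i hi => by
    rw [u2 i hi]
    exact hu _) (fun i hi => by
    rw [u2 i (by omega), u2 (i + 1) hi]
    apply hm
    rw [Fin.le_def]
    exact Nat.le_succ i) _ le_rfl (fun i hi => by
    rw [u2 i (by omega), u2 (i + 1) hi, w2 i (by omega), w2 (i + 1) hi]
    apply hw
    rw [Fin.le_def]
    exact Nat.le_succ i) (by
    rw [u2 1 (by omega)]
    exact hG) δ' (fun i hi => by
    rw [δ2 i hi, u2 i hi, w2 i hi]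
    exact hδ _)
  -- the number of boxes
  let κ : ℕ → ℤ := kap e' G δ'
  have κ0 : ∀ j, 0 ≤ κ j := kap_nonneg e' G δ'
  let S : ℕ → ℤ := fun j => ∑ i ∈ Finset.Ico j (h + 2), (e' i : ℤ) * κ i
  let νz : ℕ → ℤ := fun j => δ' j - κ j - S j
  have hS : ∀ j, j < h + 2 → S j = (e' j : ℤ) * κ j + S (j + 1) := by
    intro j hj
    exact Finset.sum_eq_sum_Ico_succ_bot hj _
  have hν : ∀ j, j + 1 < h + 2 → νz (j + 1) + (if j = 0 then (G : ℤ) else 0) ≤ νz j := by
    intro j hj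
    have h1 := kap_step e' G δ' j
    have h2 := hS j (by omega)
    change (δ' (j + 1) - κ (j + 1) - S (j + 1)) + _ ≤ δ' j - κ j - S j
    rw [h2]
    change δ' (j + 1) - δ' j + (1 + e' j) * κ j + (if j = 0 then (G : ℤ) else 0) ≤ κ (j + 1) at h1
    have h3 : (1 + (e' j : ℤ)) * κ j = κ j + e' j * κ j := by ring
    rw [h3] at h1
    linarith
  have hG0 : ∀ j : ℕ, (0 : ℤ) ≤ (if j = 0 then (G : ℤ) else 0) := by
    intro j
    split_ifs
    · exact Int.natCast_nonneg G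
    · exact le_rfl
  have hνlast : 0 ≤ νz (h + 1) := by
    have h2 : (0 : ℝ) ≤ (δ' (h + 1) : ℝ) - (1 + e' (h + 1)) * κ (h + 1) := by
      have g1 : (κ (h + 1) : ℝ) ≤ KK E (h + 1) * u' (h + 1) := hb (h + 1) (by omega)
      have g2 : (e' (h + 1) : ℝ) ≤ E := by
        rw [e2 (h + 1) (by omega)]
        exact_mod_cast he _
      have g3 : (0 : ℝ) ≤ κ (h + 1) := by exact_mod_cast κ0 (h + 1)
      have g4 : (1 + (e' (h + 1) : ℝ)) * κ (h + 1) ≤
          (1 + E) * (KK E (h + 1) * u' (h + 1)) := by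
        have g5 : (1 + (e' (h + 1) : ℝ)) * κ (h + 1) ≤ (1 + E) * κ (h + 1) :=
          mul_le_mul_of_nonneg_right (by linarith) g3
        exact g5.trans (mul_le_mul_of_nonneg_left g1 (by positivity))
      have g6 := (abs_le.1 (hδ (Fin.last _))).1
      have g7 : u' (h + 1) = u (Fin.last _) := u'_eq (Fin.last _)
      have g8 : δ' (h + 1) = δ (Fin.last _) := δ'_eq (Fin.last _)
      rw [g7] at g4
      rw [g8]
      have g9 : (1 + (1 + (E : ℝ)) * KK E (h + 1)) * u (Fin.last _) =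
          u (Fin.last _) + (1 + E) * (KK E (h + 1) * u (Fin.last _)) := by ring
      rw [g9] at hlast
      linarith
    have h3 : S (h + 1) = (e' (h + 1) : ℤ) * κ (h + 1) := by
      change ∑ i ∈ Finset.Ico (h + 1) (h + 1 + 1), (e' i : ℤ) * κ i = _
      rw [Nat.Ico_succ_singleton, Finset.sum_singleton]
    change 0 ≤ δ' (h + 1) - κ (h + 1) - S (h + 1)
    rw [h3]
    have h4 : (0 : ℝ) ≤ ((δ' (h + 1) - (1 + e' (h + 1)) * κ (h + 1) : ℤ) : ℝ) := by
      push_cast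
      exact h2
    have h5 : 0 ≤ δ' (h + 1) - (1 + e' (h + 1)) * κ (h + 1) := by exact_mod_cast h4
    linarith
  have hνanti : ∀ i d : ℕ, i + d < h + 2 → νz (i + d) ≤ νz i := by
    intro i d
    induction d with
    | zero => intro _; exact le_rfl
    | succ d ih =>
      intro hd
      have h1 := hν (i + d) (by omega)
      have h2 := hG0 (i + d)
      have h3 := ih (by omega)
      change νz (i + d + 1) ≤ νz i
      linarith
  have hνpos : ∀ j, j < h + 2 → 0 ≤ νz j := by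
    intro j hj
    have h1 := hνanti j (h + 1 - j) (by omega)
    have h2 : j + (h + 1 - j) = h + 1 := by omega
    rw [h2] at h1
    linarith
  have cν : ∀ j : Fin (h + 2), ((νz j).toNat : ℤ) = νz j := fun j =>
    Int.toNat_of_nonneg (hνpos j j.isLt)
  have cκ : ∀ j : ℕ, ((κ j).toNat : ℤ) = κ j := fun j => Int.toNat_of_nonneg (κ0 j)
  refine ⟨fun j => (κ j).toNat, fun j => (νz j).toNat, rfl, ?_, ?_, ?_, ?_⟩
  · intro j
    have h1 : ∑ i ∈ univ.filter (fun i => j ≤ i), (e i : ℤ) * ((κ i).toNat : ℤ) = S j := by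
      change _ = ∑ i ∈ Finset.Ico (j : ℕ) (h + 2), (e' i : ℤ) * κ i
      refine Finset.sum_bij (fun i _ => (i : ℕ)) ?_ ?_ ?_ ?_
      · intro i hi
        rw [Finset.mem_filter] at hi
        exact Finset.mem_Ico.2 ⟨Fin.le_def.1 hi.2, i.isLt⟩
      · intro i _ i' _ h2
        exact Fin.ext h2
      · intro i hi
        refine ⟨⟨i, (Finset.mem_Ico.1 hi).2⟩, ?_, rfl⟩
        rw [Finset.mem_filter]
        exact ⟨Finset.mem_univ _, Fin.le_def.2 (Finset.mem_Ico.1 hi).1⟩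
      · intro i _
        rw [cκ, e'_eq]
    rw [h1, cν, cκ]
    change δ j = δ' j - κ j - S j + κ j + S j
    rw [δ'_eq]
    ring
  · intro i j hij
    have h1 := hνanti i (j - i) (by have := Fin.le_def.1 hij; omega)
    have h2 : (i : ℕ) + (j - i) = j := by have := Fin.le_def.1 hij; omega
    rw [h2] at h1
    exact Int.toNat_le_toNat h1
  · have h1 := hν 0 (by omega)
    rw [if_pos rfl] at h1
    change (νz ((1 : Fin (h + 2)) : ℕ)).toNat + G ≤ (νz 0).toNat
    have h2 : ((1 : Fin (h + 2)) : ℕ) = 1 := rfl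
    rw [h2]
    have h3 := hνpos 0 (by omega)
    have h4 := hνpos 1 (by omega)
    change νz (0 + 1) + G ≤ νz 0 at h1
    rw [zero_add] at h1
    omega
  · intro i
    have h1 := hb i i.isLt
    rw [u'_eq] at h1
    have h2 : (((κ i).toNat : ℕ) : ℝ) = ((κ i : ℤ) : ℝ) := by
      exact_mod_cast cκ i
    change (((κ i).toNat : ℕ) : ℝ) ≤ _
    rw [h2]
    refine h1.trans (mul_le_mul_of_nonneg_right ?_ (hu i))
    have h3 : KK E i ≤ KK E (h + 1) := KK_mono E (by have := i.isLt; omega)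
    have h4 := KK_nonneg E (h + 1)
    have h5 : (0 : ℝ) ≤ E := Nat.cast_nonneg E
    nlinarith [mul_nonneg h5 h4]

end Vale.Agent.P181.Z.H328
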